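import Vale.Agent.Q144.Main

/-!
# P144: correlations and spin field, with one critical temperature and two normalisations
-/

namespace Vale.Agent.Results.P144.A00Universality

open MeasureTheory TopologicalSpace
open Vale.Agent.P144 Vale.Agent.P144Z Vale.Agent.N144 Vale.Agent.Q144

/-- At `λ = 0` the plane state is unique, the mixed correlations converge locally uniformly in the
plane and in the domains `Dom 1` (free, plus, minus), and the limits are conformally covariant.
For small `λ` of either sign there are one critical temperature, two normalisations and one plane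
state such that, in the plane and in the domains `Dom K`, the mixed correlations converge locally
uniformly to `Zσ ^ n * Zε ^ m` times these limits, and the spin field converges in law, as a random
distribution, to `Zσ` times the critical field; the limit is conformally covariant. -/
theorem result : ∀ J > 0,
    ∃ (μ₀ : Measure Config) (C : Pts → ℝ) (CD : Set ℂ → Option (ℝ → Config) → Pts → ℝ),
    (∀ μ, IsPlaneState J 0 (fun _ => 0) (Kc / J) μ ↔ μ = μ₀) ∧
    LocLim Set.univ (famOf μ₀) C ∧
    (∀ p, Good Set.univ p → (∀ j, C { p with j := j } = C p) ∧ (p.m = 0 → Even p.n → 0 < C p) ∧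
      ∀ w t : ℂ, w ≠ 0 → Cov (fun z => w * z + t) C C p) ∧
    (∀ D b, Dom 1 D → StdBC b → LocLim D (crit J D b) (CD D b) ∧ ∀ p, Good D p →
      (∀ j, CD D b { p with j := j } = CD D b p) ∧
      (p.m = 0 → (b = none ∧ Even p.n ∨ b = some fun _ _ => true) → 0 < CD D b p) ∧
      ∀ D' φ, Dom 1 D' → DifferentiableOn ℂ φ D → Set.BijOn φ D D' →
        Cov φ (CD D b) (CD D' b) p) ∧
    ∀ K < 1, ∀ V, IsPotential V → ∃ lam₀ > 0,
      ∃ β Zσ Zε : ℝ → ℝ, AnalyticOnNhd ℝ β (Set.Ioo (-lam₀) lam₀) ∧
      AnalyticOnNhd ℝ Zσ (Set.Ioo (-lam₀) lam₀) ∧ AnalyticOnNhd ℝ Zε (Set.Ioo (-lam₀) lam₀) ∧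
      β 0 = Kc / J ∧ Zσ 0 = 1 ∧ Zε 0 = 1 ∧ ∀ lam : ℝ, |lam| < lam₀ →
        0 < β lam ∧ 0 < Zσ lam ∧ 0 < Zε lam ∧
        (∃ μ, IsPlaneState J lam V (β lam) μ ∧ IsTorusState J lam V (β lam) μ ∧
          LocLim Set.univ (famOf μ) (fun p => Zσ lam ^ p.n * Zε lam ^ p.m * C p) ∧
          FieldUniv ⊤ (famOf μ₀) (famOf μ) (Zσ lam) C ∧
          MomB Set.univ (famOf μ) (Zσ lam) C ∧ FieldB Set.univ (famOf μ) (Zσ lam) C ∧
          ∀ w t : ℂ, w ≠ 0 →
            FieldCov Set.univ Set.univ (fun z => w * z + t) (famOf μ) (famOf μ)) ∧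
        (∀ (D : Opens ℂ) b, Dom K D → StdBC b →
          LocLim D (inDom J lam V (β lam) D b)
            (fun p => Zσ lam ^ p.n * Zε lam ^ p.m * CD D b p) ∧
          FieldUniv D (crit J D b) (inDom J lam V (β lam) D b) (Zσ lam) (CD D b) ∧
          MomB D (inDom J lam V (β lam) D b) (Zσ lam) (CD D b) ∧
          FieldB D (inDom J lam V (β lam) D b) (Zσ lam) (CD D b) ∧
          ∀ D' φ, Dom K D' → DifferentiableOn ℂ φ D → Set.BijOn φ D D' →
            FieldCov D D' φ (inDom J lam V (β lam) D b) (inDom J lam V (β lam) D' b)) ∧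
        ∀ D b, IsPC1 D ∨ IsOpen D ∧ Bornology.IsBounded D ∧ Convex ℝ D → SignBC D b →
          LocDiff D (crit J D b) (inDom J lam V (β lam) D b) (Zσ lam) (Zε lam) :=
  main

end Vale.Agent.Results.P144.A00Universality
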